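import Vale.Agent.P146.H737.C3

set_option linter.all false

/-!
Telescoping over the doublings of the size: the rate of one exponential moment with the
exponent `1/3` in `n` and one inverse power of the exponent.
-/

open MeasureTheory ProbabilityTheory Filter Topology

namespace Vale.Agent.P146.H518

open Vale.Agent.P146 Vale.Agent.P146.H605 Vale.Agent.P146.H260.Asm Vale.Agent.P146.H737

/-- doubling the size costs `C n^{1/3} (1 + log n)` in the logarithm of a moment -/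
def Dbl (β C : ℝ) : Prop := ∀ n : ℕ, 1 ≤ n → ∀ x : ℝ, 0 < x → x ≤ 1 / 2 →
  Real.log (∫ g, Real.exp (x * freeEnergy (2 * n) β g) ∂(disorder (2 * n))) ≤
    2 * Real.log (∫ g, Real.exp (x * freeEnergy n β g) ∂(disorder n)) +
      C * (n : ℝ) ^ (1 / 3 : ℝ) * (1 + Real.log n)

/-- doubling the size costs `C x^{1-c} n^{1/3} (1 + log n)` in the logarithm of a moment -/
def Dblc (β c C : ℝ) : Prop := ∀ n : ℕ, 1 ≤ n → ∀ x : ℝ, 0 < x → x ≤ 1 / 2 →
  Real.log (∫ g, Real.exp (x * freeEnergy (2 * n) β g) ∂(disorder (2 * n))) ≤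
    2 * Real.log (∫ g, Real.exp (x * freeEnergy n β g) ∂(disorder n)) +
      C * x ^ (1 - c) * (n : ℝ) ^ (1 / 3 : ℝ) * (1 + Real.log n)

theorem Dbl.dblc {β C : ℝ} (h : Dbl β C) : Dblc β 1 C := by
  intro n hn x hx hx2
  have := h n hn x hx hx2
  rwa [sub_self, Real.rpow_zero, mul_one]

lemma q_le : (2 : ℝ) ^ (1 / 3 : ℝ) ≤ 63 / 50 := by
  have h1 : ((2 : ℝ) ^ (1 / 3 : ℝ)) ^ 3 = 2 := by
    rw [← Real.rpow_natCast, ← Real.rpow_mul (by norm_num)]
    norm_num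
  have h0 : 0 ≤ (2 : ℝ) ^ (1 / 3 : ℝ) := by positivity
  by_contra h
  push Not at h
  have h2 : (63 / 50 : ℝ) ^ 3 < ((2 : ℝ) ^ (1 / 3 : ℝ)) ^ 3 :=
    pow_lt_pow_left₀ h (by norm_num) (by norm_num)
  rw [h1] at h2
  norm_num at h2

lemma pot {N C : ℝ} (hN : 1 ≤ N) (hC : 0 ≤ C) :
    C * N ^ (1 / 3 : ℝ) * (1 + Real.log N) +
      2 * C * (2 * N) ^ (1 / 3 : ℝ) * (4 + Real.log (2 * N)) ≤
      2 * (2 * C * N ^ (1 / 3 : ℝ) * (4 + Real.log N)) := by
  have hN0 : 0 < N := by linarith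
  have hl : 0 ≤ Real.log N := Real.log_nonneg hN
  have e1 : (2 * N) ^ (1 / 3 : ℝ) = 2 ^ (1 / 3 : ℝ) * N ^ (1 / 3 : ℝ) :=
    Real.mul_rpow (by norm_num) hN0.le
  have e2 : Real.log (2 * N) = Real.log 2 + Real.log N := Real.log_mul (by norm_num) hN0.ne'
  obtain ⟨y, hy⟩ : ∃ y, y = N ^ (1 / 3 : ℝ) := ⟨_, rfl⟩
  have hy0 : 0 ≤ y := by rw [hy]; positivity
  have hCy : 0 ≤ C * y := mul_nonneg hC hy0
  rw [e1, e2, ← hy]
  have hq := q_le
  have hq0 : 0 ≤ (2 : ℝ) ^ (1 / 3 : ℝ) := by positivity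
  have h2 : Real.log 2 ≤ 7 / 10 := by
    have := Real.log_two_lt_d9
    linarith
  have h20 : 0 ≤ Real.log 2 := Real.log_nonneg (by norm_num)
  have h3 : (2 : ℝ) ^ (1 / 3 : ℝ) * (4 + (Real.log 2 + Real.log N)) ≤
      63 / 50 * (4 + (7 / 10 + Real.log N)) := by
    apply mul_le_mul hq (by linarith) (by linarith) (by norm_num)
  have h4 : C * y * (1 + Real.log N) + 2 * (C * y) * ((2 : ℝ) ^ (1 / 3 : ℝ) *
      (4 + (Real.log 2 + Real.log N))) ≤ 4 * (C * y) * (4 + Real.log N) := by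
    have h5 : 2 * (C * y) * ((2 : ℝ) ^ (1 / 3 : ℝ) * (4 + (Real.log 2 + Real.log N))) ≤
        2 * (C * y) * (63 / 50 * (4 + (7 / 10 + Real.log N))) := by gcongr
    have h6 : 0 ≤ C * y * Real.log N := mul_nonneg hCy hl
    nlinarith
  calc _ = C * y * (1 + Real.log N) + 2 * (C * y) * ((2 : ℝ) ^ (1 / 3 : ℝ) *
        (4 + (Real.log 2 + Real.log N))) := by ring
    _ ≤ _ := h4
    _ = _ := by ring

/-- the logarithm of a moment -/
noncomputable def Lm (β x : ℝ) (n : ℕ) : ℝ :=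
  Real.log (∫ g, Real.exp (x * freeEnergy n β g) ∂(disorder n))

lemma tel {β c C₀ C : ℝ} (h : Dblc β c C₀) {n : ℕ} (hn : 1 ≤ n) {x : ℝ} (hx : 0 < x)
    (hx2 : x ≤ 1 / 2) (hC : 0 ≤ C) (hCC : C = C₀ * x ^ (1 - c)) (k : ℕ) :
    Lm β x (2 ^ k * n) + 2 * C * ((2 ^ k * n : ℕ) : ℝ) ^ (1 / 3 : ℝ) *
      (4 + Real.log ((2 ^ k * n : ℕ) : ℝ)) ≤
      2 ^ k * (Lm β x n + 2 * C * (n : ℝ) ^ (1 / 3 : ℝ) * (4 + Real.log n)) := by
  induction k with
  | zero => simp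
  | succ k ih =>
    have e : 2 ^ (k + 1) * n = 2 * (2 ^ k * n) := by rw [pow_succ]; ring
    obtain ⟨N, hN⟩ : ∃ N, N = 2 ^ k * n := ⟨_, rfl⟩
    rw [e, ← hN]
    rw [← hN] at ih
    have hN1 : 1 ≤ N := by
      rw [hN]; exact Nat.one_le_iff_ne_zero.2 (by positivity)
    have h1 := h N hN1 x hx hx2
    rw [← hCC] at h1
    have h2 := pot (N := (N : ℝ)) (C := C) (by exact_mod_cast hN1) hC
    unfold Lm at ih ⊢
    have e2 : ((2 * N : ℕ) : ℝ) = 2 * (N : ℝ) := by push_cast; ring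
    rw [e2]
    have e3 : (2 : ℝ) ^ (k + 1) = 2 * 2 ^ k := by rw [pow_succ]; ring
    rw [e3]
    linarith

/-- **The rate `n^{1/3} r^{-c}` of one exponential moment.** -/
theorem tmh_of_dblc {β c C₀ : ℝ} (hβ : 1 ≤ β) (hC₀ : 0 ≤ C₀) (h : Dblc β c C₀) :
    TMh β (1 / 3) c 1 := by
  obtain ⟨D, hD, h1⟩ := tmh2 hβ
  refine ⟨8 * C₀, by positivity, fun n hn r hr hr2 hr6 => ?_⟩
  obtain ⟨C, hCC⟩ : ∃ C, C = C₀ * r ^ (1 - c) := ⟨_, rfl⟩
  have hC : 0 ≤ C := by rw [hCC]; positivity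
  have hn1 : (1 : ℝ) ≤ n := by exact_mod_cast hn
  have hn0 : (0 : ℝ) < n := by linarith
  have hl : 0 ≤ Real.log (n : ℝ) := Real.log_nonneg hn1
  obtain ⟨P, hP⟩ : ∃ P, P = Real.log 2 + Sh.Vx β r := ⟨_, rfl⟩
  obtain ⟨W, hW⟩ : ∃ W, W = Lm β r n + 2 * C * (n : ℝ) ^ (1 / 3 : ℝ) * (4 + Real.log n) :=
    ⟨_, rfl⟩
  -- the limit
  have key : r * (n * P) ≤ W := by
    have h2 : ∀ᶠ k : ℕ in atTop, r * (n * P) - r * n * ((2 ^ k * n : ℕ) : ℝ) ^ (-(1 / 6) : ℝ) ≤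
        W := by
      have h3 := Vale.Agent.P146.R3.H924.Low5.log_pow_le D 2 (δ := 1 / 6) (by norm_num)
      have t1 : Tendsto (fun k : ℕ => 2 ^ k * n) atTop atTop := by
        refine Filter.tendsto_atTop_mono (fun k => ?_)
          (tendsto_pow_atTop_atTop_of_one_lt (by norm_num : (1 : ℕ) < 2))
        exact Nat.le_mul_of_pos_right _ (by omega)
      filter_upwards [t1.eventually h3] with k hk
      obtain ⟨N, hN⟩ : ∃ N, N = 2 ^ k * n := ⟨_, rfl⟩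
      have h4 := tel h hn hr hr2 hC hCC k
      rw [← hN] at hk h4 ⊢
      have hN1 : n ≤ N := by
        rw [hN]; exact Nat.le_mul_of_pos_left _ (by positivity)
      have hNn : (n : ℝ) ≤ N := by exact_mod_cast hN1
      have hN0 : (0 : ℝ) < N := by linarith
      have h5 := h1 N (by omega) r hr hr2 (hr6.trans (by gcongr))
      rw [← hP, neg_zero, Real.rpow_zero, mul_one] at h5
      have hlN : 0 ≤ Real.log (N : ℝ) := Real.log_nonneg (by linarith)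
      have h6 : D * (1 + Real.log (N : ℝ)) ^ 2 * (N : ℝ) ^ (2 / 3 : ℝ) ≤
          N * (N : ℝ) ^ (-(1 / 6) : ℝ) := by
        have e1 : (N : ℝ) * (N : ℝ) ^ (-(1 / 6) : ℝ) = (N : ℝ) ^ (1 / 6 : ℝ) *
            (N : ℝ) ^ (2 / 3 : ℝ) := by
          rw [← Real.rpow_add hN0, ← Real.rpow_one_add' hN0.le (by norm_num)]
          norm_num
        rw [e1]
        gcongr
      have h7 : r * (N * P) ≤ Lm β r N + r * (N * (N : ℝ) ^ (-(1 / 6) : ℝ)) := by
        have h8 : N * P ≤ 1 / r * Lm β r N + N * (N : ℝ) ^ (-(1 / 6) : ℝ) := by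
          unfold Lm
          linarith
        have h9 := mul_le_mul_of_nonneg_left h8 hr.le
        have e2 : r * (1 / r * Lm β r N + N * (N : ℝ) ^ (-(1 / 6) : ℝ)) =
            Lm β r N + r * (N * (N : ℝ) ^ (-(1 / 6) : ℝ)) := by
          field_simp
        linarith
      have h10 : 0 ≤ 2 * C * (N : ℝ) ^ (1 / 3 : ℝ) * (4 + Real.log (N : ℝ)) := by positivity
      have e3 : (N : ℝ) = 2 ^ k * n := by rw [hN]; push_cast; ring
      have h11 : r * (N * P) - r * (N * (N : ℝ) ^ (-(1 / 6) : ℝ)) ≤ 2 ^ k * W := by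
        rw [hW]; linarith
      have h12 : 2 ^ k * (r * (n * P) - r * n * (N : ℝ) ^ (-(1 / 6) : ℝ)) ≤ 2 ^ k * W := by
        refine le_trans (le_of_eq ?_) h11
        rw [show r * (N * P) - r * (N * (N : ℝ) ^ (-(1 / 6) : ℝ)) =
          N * (r * P - r * (N : ℝ) ^ (-(1 / 6) : ℝ)) by ring]
        conv_rhs => rw [show (N : ℝ) * (r * P - r * (N : ℝ) ^ (-(1 / 6) : ℝ)) =
          (2 ^ k * n) * (r * P - r * (N : ℝ) ^ (-(1 / 6) : ℝ)) by rw [← e3]]
        ring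
      exact le_of_mul_le_mul_left h12 (by positivity)
    have h3 : Tendsto (fun k : ℕ => r * (n * P) -
        r * n * ((2 ^ k * n : ℕ) : ℝ) ^ (-(1 / 6) : ℝ)) atTop (𝓝 (r * (n * P) - r * n * 0)) := by
      refine tendsto_const_nhds.sub (Tendsto.const_mul _ ?_)
      refine (tendsto_rpow_neg_atTop (by norm_num : (0 : ℝ) < 1 / 6)).comp
        (tendsto_natCast_atTop_atTop.comp ?_)
      refine Filter.tendsto_atTop_mono (fun k => ?_)
        (tendsto_pow_atTop_atTop_of_one_lt (by norm_num : (1 : ℕ) < 2))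
      exact Nat.le_mul_of_pos_right _ (by omega)
    have h4 := le_of_tendsto h3 h2
    linarith
  rw [← hP, pow_one]
  have e1 : 1 / r * Real.log (∫ g, Real.exp (r * freeEnergy n β g) ∂(disorder n)) +
      8 * C₀ * (1 + Real.log n) * ((n : ℝ) ^ (1 / 3 : ℝ) * r ^ (-c)) =
      1 / r * (Lm β r n + 2 * C * (n : ℝ) ^ (1 / 3 : ℝ) * (4 + 4 * Real.log n)) := by
    have e2 : r ^ (-c) = 1 / r * r ^ (1 - c) := by
      rw [sub_eq_add_neg, Real.rpow_add hr, Real.rpow_one]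
      field_simp
    rw [e2, hCC]
    unfold Lm
    ring
  rw [e1]
  have h5 : W ≤ Lm β r n + 2 * C * (n : ℝ) ^ (1 / 3 : ℝ) * (4 + 4 * Real.log n) := by
    rw [hW]
    have : 2 * C * (n : ℝ) ^ (1 / 3 : ℝ) * (4 + Real.log n) ≤
        2 * C * (n : ℝ) ^ (1 / 3 : ℝ) * (4 + 4 * Real.log n) := by
      gcongr
      linarith
    linarith
  have h6 : n * P = 1 / r * (r * (n * P)) := by field_simp
  rw [h6]
  exact mul_le_mul_of_nonneg_left (key.trans h5) (by positivity)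

/-- **The rate `n^{1/3} r^{-1}` of one exponential moment.** -/
theorem tmh_of_dbl {β C : ℝ} (hβ : 1 ≤ β) (hC : 0 ≤ C) (h : Dbl β C) : TMh β (1 / 3) 1 1 :=
  tmh_of_dblc hβ hC h.dblc

end Vale.Agent.P146.H518
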