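import Vale.Agent.P146.H425.LowA
import Vale.Agent.P146.H641.Flat
import Vale.Agent.P146.H655.GumSK
import Vale.Agent.P146.H518.Tel

set_option linter.all false

/-!
The end assembly with the rate `n^{1/3} r^{-c}` of one exponential moment: with
`θ (5 + c) = 2 / 3`, the sharp moment law down to `n^{-θ}`, the finite size correction of the mean
`n^{1-5θ}` and the variance above `n^{2θ}`.
-/

open MeasureTheory ProbabilityTheory Filter Topology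

namespace Vale.Agent.P146.H518

open Vale.Agent.P146 Vale.Agent.P146.H605 Vale.Agent.P146.H260.Asm Vale.Agent.P146.H737
open Vale.Agent.P146.H425.LowA (var_of_moment)

/-- the statement for one `β` -/
def AllC (β θ a c : ℝ) (k : ℕ) (l p κ₀ C : ℝ) : Prop :=
    Tendsto (fun n : ℕ => (∫ g, freeEnergy n β g ∂(disorder n)) / n) atTop (𝓝 p) ∧
    -- the sharp moment law and the sharp upper tail
    (∀ ε : ℝ, 0 < ε → ∀ a' : ℝ, a' < θ → ∃ δ : ℝ, 0 < δ ∧ ∀ᶠ n : ℕ in atTop,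
      (∀ x : ℝ, (n : ℝ) ^ (-a') ≤ x → x ≤ δ →
        |Real.log (∫ g, Real.exp (x * (freeEnergy n β g - n * p)) ∂(disorder n)) -
          l * n * x ^ 6| ≤ ε * n * x ^ 6) ∧
      (∀ s : ℝ, (n : ℝ) ^ (-(5 * a')) ≤ s → s ≤ δ →
        |Real.log ((disorder n).real {g | n * (p + s) ≤ freeEnergy n β g}) +
          5 / 6 * (6 * l) ^ (-(1 / 5) : ℝ) * n * s ^ (6 / 5 : ℝ)| ≤
            ε * n * s ^ (6 / 5 : ℝ))) ∧
    -- upper bounds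
    UpperG β θ (k + 1) p κ₀ C ∧
    (∀ n : ℕ, 1 ≤ n → ∀ r : ℝ, 0 < r → r ≤ 1 → 1 ≤ r ^ 6 * n →
      n * p - 1 / r * Real.log (∫ g, Real.exp (r * freeEnergy n β g) ∂(disorder n)) ≤
        C * (1 + Real.log n) ^ k * ((n : ℝ) ^ a * r ^ (-c))) ∧
    -- the variance against the finite-size correction of the mean
    (∀ n : ℕ, 1 ≤ n → Var[freeEnergy n β; disorder n] ≤
      C * (1 + Real.log n) * ((n : ℝ) ^ (1 / 5 : ℝ) *
        (1 + (n * p - ∫ g, freeEnergy n β g ∂(disorder n))) ^ (4 / 5 : ℝ))) ∧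
    -- lower bounds
    (∀ γ : ℝ, γ < 2 * θ → ∀ᶠ n : ℕ in atTop,
      (n : ℝ) ^ γ ≤ Var[freeEnergy n β; disorder n] ∧
      ∃ t : ℝ, 0 ≤ t ∧ t < 1 ∧ (n : ℝ) ^ γ ≤ n * (1 - t) * crossOverlap n β t) ∧
    (∀ κ : ℝ, 0 ≤ κ → 2 * κ < θ → ∀ᶠ n : ℕ in atTop, ∀ y : ℝ,
      (disorder n).real {g | |freeEnergy n β g - y| ≤ (n : ℝ) ^ κ} ≤ (n : ℝ) ^ (-κ))

/-- small balls from the variance -/
theorem small_of_var {β θ : ℝ} (hV : ∀ γ : ℝ, γ < 2 * θ → ∀ᶠ n : ℕ in atTop,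
    (n : ℝ) ^ γ ≤ Var[freeEnergy n β; disorder n]) {κ : ℝ} (hκ0 : 0 ≤ κ) (hκ : 2 * κ < θ) :
    ∀ᶠ n : ℕ in atTop, ∀ y : ℝ,
      (disorder n).real {g | |freeEnergy n β g - y| ≤ (n : ℝ) ^ κ} ≤ (n : ℝ) ^ (-κ) := by
  obtain ⟨γ, hγ⟩ : ∃ γ, γ = (4 * κ + 2 * θ) / 2 := ⟨_, rfl⟩
  have hγ1 : γ < 2 * θ := by rw [hγ]; linarith
  have hγ2 : 4 * κ < γ := by rw [hγ]; linarith
  have h1 := hV γ hγ1
  have h2 : Tendsto (fun n : ℕ => (n : ℝ) ^ (γ / 2 - 2 * κ)) atTop atTop :=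
    (tendsto_rpow_atTop (by linarith)).comp tendsto_natCast_atTop_atTop
  filter_upwards [h1, h2.eventually_ge_atTop 5220, eventually_ge_atTop 1] with n h3 h4 hn y
  have hn1 : (1 : ℝ) ≤ n := by exact_mod_cast hn
  have hn0 : (0 : ℝ) < n := by linarith
  have hk1 : 1 ≤ (n : ℝ) ^ κ := Real.one_le_rpow hn1 hκ0
  refine (H655.anticoncentration n β y (by positivity)).trans ?_
  have hs : (n : ℝ) ^ (γ / 2) ≤ 1 + √Var[freeEnergy n β; disorder n] := by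
    have h5 : (n : ℝ) ^ (γ / 2) = √((n : ℝ) ^ γ) := by
      rw [Real.sqrt_eq_rpow, ← Real.rpow_mul hn0.le]
      congr 1
      ring
    rw [h5]
    have := Real.sqrt_le_sqrt h3
    linarith
  have hg : 0 < (n : ℝ) ^ (γ / 2) := by positivity
  calc 2610 * ((n : ℝ) ^ κ + 1) / (1 + √Var[freeEnergy n β; disorder n])
      ≤ 2610 * ((n : ℝ) ^ κ + (n : ℝ) ^ κ) / (n : ℝ) ^ (γ / 2) := by gcongr
    _ = (5220 * (n : ℝ) ^ (2 * κ)) * (n : ℝ) ^ (-κ) / (n : ℝ) ^ (γ / 2) := by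
        rw [mul_assoc, ← Real.rpow_add hn0]
        rw [show 2 * κ + -κ = κ by ring]
        ring
    _ ≤ ((n : ℝ) ^ (γ / 2 - 2 * κ) * (n : ℝ) ^ (2 * κ)) * (n : ℝ) ^ (-κ) / (n : ℝ) ^ (γ / 2) := by
        gcongr
    _ = (n : ℝ) ^ (-κ) := by
        rw [← Real.rpow_add hn0, show γ / 2 - 2 * κ + 2 * κ = γ / 2 by ring]
        field_simp

/-- **The end assembly for one `β`.** -/
theorem all_c {β θ a c l : ℝ} {k : ℕ} (hβ : 1 < β) (hc0 : 0 ≤ c) (hc1 : c ≤ 1)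
    (hθ : θ * (5 + c) = 1 - a) (hθ0 : 0 < θ) (hθ6 : θ < 1 / 6)
    (hT : TMy β a c k) (hTM : TM β a c k) (hl : 0 < l)
    (hlim : Tendsto (fun x => (Sh.Vx β x - Sh.P0 β) / x ^ 5) (𝓝[>] 0) (𝓝 l)) :
    ∃ p κ₀ C : ℝ, 0 < κ₀ ∧ AllC β θ a c k l p κ₀ C := by
  obtain ⟨-, -, -, -, -, -, -, -, -, -, hEn, -⟩ := Ld.two_sided hβ (Lb.l1 hβ)
  have hR := mean_rate_g hβ.le hc0 hc1 hθ hθ0.le hθ6 hTM
  obtain ⟨k₁, D₁, hk₁, hD₁, hU⟩ := upper_g hβ hθ0.le hθ6.le hR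
  obtain ⟨D₃, hD₃, h3⟩ := hTM
  have hS := sharp_g hβ hc0 hθ hθ0 hθ6.le hT hl hlim
  have hvar : ∀ γ : ℝ, γ < 2 * θ → ∀ᶠ n : ℕ in atTop,
      (n : ℝ) ^ γ ≤ Var[freeEnergy n β; disorder n] := by
    obtain ⟨c', hc', hF⟩ := H641.flat'
    exact fun γ hγ => var_of_moment hc' hF (by linarith) hl hθ0 hθ6.le
      (fun n hn => (hU n hn).1) (fun ε hε a' ha => by
        obtain ⟨δ, hδ, h5⟩ := hS ε hε a' ha
        exact ⟨δ, hδ, h5.mono fun n hn => hn.1⟩) γ hγ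
  obtain ⟨C, hC⟩ : ∃ C, C = D₁ + D₃ + β ^ 2 / 2 := ⟨_, rfl⟩
  have hb : 0 ≤ β ^ 2 := sq_nonneg β
  have hDD₁ : D₁ ≤ C := by linarith
  have hDD₃ : D₃ ≤ C := by linarith
  refine ⟨Sx.pv β, k₁, C, hk₁, hEn, hS,
    hU.mono le_rfl (by linarith) hDD₁, fun n hn r hr hr1 hr6 => ?_, fun n hn => ?_,
    fun γ hγ => ?_, fun κ hκ0 hκ => small_of_var hvar hκ0 hκ⟩
  · have h4 := h3 n hn r hr hr1 hr6
    have hn1 : (1 : ℝ) ≤ n := by exact_mod_cast hn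
    have hl0 : 0 ≤ Real.log n := Real.log_nonneg hn1
    have h5 : 0 < r ^ (-c) := Real.rpow_pos_of_pos hr _
    have h6 : D₃ * (1 + Real.log n) ^ k * ((n : ℝ) ^ a * r ^ (-c)) ≤
        C * (1 + Real.log n) ^ k * ((n : ℝ) ^ a * r ^ (-c)) := by gcongr
    linarith
  · have hn1 : (1 : ℝ) ≤ n := by exact_mod_cast hn
    have hl0 : 0 ≤ Real.log n := Real.log_nonneg hn1
    obtain ⟨h1, -, -, -, -, h6, -⟩ := hU n hn
    obtain ⟨X, hX⟩ : ∃ X, X = (n : ℝ) ^ (1 / 5 : ℝ) *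
        (1 + (n * Sx.pv β - ∫ g, freeEnergy n β g ∂(disorder n))) ^ (4 / 5 : ℝ) := ⟨_, rfl⟩
    have hX1 : 1 ≤ X := by
      rw [hX]
      exact one_le_mul_of_one_le_of_one_le (Real.one_le_rpow hn1 (by norm_num))
        (Real.one_le_rpow (by linarith) (by norm_num))
    have h2 := var_le_of_prof n β hn (A := D₁ * X) (fun t ht ht1 => by
      refine (h6 t ht ht1).1.trans (le_of_eq ?_)
      rw [hX, mul_assoc])
    rw [← hX]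
    refine h2.trans ?_
    have h3 : D₁ * X * Real.log n ≤ C * X * Real.log n := by gcongr
    have h4 : β ^ 2 / 2 ≤ C * X := by
      have h5 : C * 1 ≤ C * X := by
        have : 0 ≤ C := by linarith
        gcongr
      linarith
    nlinarith
  · filter_upwards [hvar γ hγ, Tb.prof_grow (by positivity : 0 < 2 * θ) hvar γ hγ]
      with n h1 h2
    exact ⟨h1, h2⟩

/-- **The end assembly.** -/
theorem final_c {θ c : ℝ} (hc0 : 0 ≤ c) (hc1 : c ≤ 1) (hθ : θ * (5 + c) = 2 / 3)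
    (h : ∀ β : ℝ, 1 < β → ∃ C, 0 ≤ C ∧ Dblc β c C) :
    ∃ Λ : ℝ → ℝ, Tendsto Λ (𝓝[>] 1) (𝓝 (9 / 5120)) ∧ ∀ β : ℝ, 1 < β → 0 < Λ β ∧
      ∃ p κ₀ C : ℝ, 0 < κ₀ ∧ AllC β θ (1 / 3) c 1 (Λ β) p κ₀ C := by
  obtain ⟨Λ, hΛ, hΛβ⟩ := Sh.lim_Lam
  refine ⟨Λ, hΛ, fun β hβ => ?_⟩
  obtain ⟨hΛ0, hlimΛ⟩ := hΛβ β hβ
  obtain ⟨C, hC, hD⟩ := h β hβ
  have hT := tmh_of_dblc hβ.le hC hD
  have hθ0 : 0 < θ := by
    by_contra h0
    push Not at h0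
    nlinarith
  have hθ6 : θ < 1 / 6 := by
    by_contra h0
    push Not at h0
    nlinarith
  exact ⟨hΛ0, all_c hβ hc0 hc1 (by rw [hθ]; norm_num) hθ0 hθ6 hT
    (hT.tm hβ.le (by norm_num) hc0) hΛ0 hlimΛ⟩

end Vale.Agent.P146.H518
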